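import Vale.Agent.N344X.Main

/-!
P344: circuits with `O(n (log n)^(1 - 1/26000))` gates for `F_n`; the same exponent for the
Kronecker powers of every matrix.
-/

namespace Vale.Agent.Results.P344.A0DualBases

open Vale.Agent.N344X

theorem result :
    (∃ K : ℝ, ∀ n : ℕ, 2 ≤ n → ∃ s ∈ gates fun j k : Fin n =>
      Complex.exp (2 * Real.pi * Complex.I / n) ^ ((j : ℕ) * (k : ℕ)),
        (s : ℝ) ≤ K * (n * Real.logb 2 n ^ (1 - 1 / 26000 : ℝ))) ∧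
    ∀ (k : ℕ) (A : Matrix (Fin k) (Fin k) ℂ), ∃ K : ℝ, ∀ m : ℕ, 1 ≤ m →
      ∃ s ∈ gates fun x y : Fin m → Fin k => ∏ i, A (x i) (y i),
        (s : ℝ) ≤ K * (k ^ m * (m : ℝ) ^ (1 - 1 / 26000 : ℝ)) :=
  ⟨main_F.imp fun _ h n hn => ⟨_, Nat.sInf_mem (gates_nonempty _), h n hn⟩,
    fun k A => (main_kron k A).imp fun _ h m hm => ⟨_, Nat.sInf_mem (gates_nonempty _), h m hm⟩⟩

end Vale.Agent.Results.P344.A0DualBases
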