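import Vale.Agent.N344.Bridge

/-!
P344: transfer of upper bounds from the Walsh-Hadamard transform to the Fourier transform; the two
transforms have the same exponent.
-/

namespace Vale.Agent.Results.P344.A0Exponent

open Vale.Agent.P344D17 Vale.Agent.N344

theorem result :
    (∃ K : ℝ, ∀ a b : ℝ, 0 ≤ a → 0 ≤ b →
      (∀ m : ℕ, (size (kron (F 2) m) : ℝ) ≤ 2 ^ m * (a * m + b)) → ∀ n : ℕ, 4 ≤ n →
        (size (F n) : ℝ) ≤
          K * (n * (a * Real.logb 2 n + (b + 1) * Real.logb 2 (Real.logb 2 n)))) ∧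
    (∀ α : ℝ, 0 ≤ α → α < 1 →
      ((∀ β : ℝ, α < β → ∃ K : ℝ, ∀ n : ℕ, 2 ≤ n →
          (size (F n) : ℝ) ≤ K * (n * Real.logb 2 n ^ β)) ↔
        ∀ β : ℝ, α < β → ∃ K : ℝ, ∀ m : ℕ, 1 ≤ m →
          (size (kron (F 2) m) : ℝ) ≤ K * (2 ^ m * (m : ℝ) ^ β))) :=
  ⟨main_aff, main_iff⟩

end Vale.Agent.Results.P344.A0Exponent
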